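import Vale.Agent.Results.P058.GrahamFalse
import Vale.Agent.Lib.P058L.LSuff
import Vale.Agent.Lib.P058L.NecLB

/-!
# P058: characterization of the finite Euclidean Ramsey sets

A finite nonempty set `A` in `ℝ ^ d` is Ramsey iff there are affine functions `c k` with integer weights `e k`
such that `∑ e k * (c k x - c k y) ^ 2 = |x - y| ^ 2` for `x y ∈ A` and the weighted multiset of the values
`c k x` is the same for all points `x ∈ A`.
-/

namespace Vale.Agent.Results.P058.FullCriterion

open Vale.Agent.Lib.P058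

theorem result :
    -- the characterization of the Ramsey sets
    (∀ (d : ℕ) (A : Set (EuclideanSpace ℝ (Fin d))), A.Finite → A.Nonempty →
      (IsRamsey A ↔ ∃ (n : ℕ) (e : Fin n → ℤ) (c : Fin n → EuclideanSpace ℝ (Fin d) →ᵃ[ℝ] ℝ),
        (∀ x ∈ A, ∀ y ∈ A, ∑ k, (e k : ℝ) * (c k x - c k y) ^ 2 = dist x y ^ 2) ∧
        ∀ t : ℝ, ∀ x ∈ A, ∀ y ∈ A,
          ∑ k, (if c k x = t then e k else 0) = ∑ k, if c k y = t then e k else 0)) ∧
    -- a Ramsey set (a cyclic quadrilateral in the plane) that is not subtransitive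
    (∃ A : Set (EuclideanSpace ℝ (Fin 2)), A.ncard = 4 ∧ IsRamsey A ∧ ¬ IsSubtransitive A) ∧
    -- the Leader-Russell-Walters conjecture (Ramsey iff subtransitive) is false
    ¬ (∀ (d : ℕ) (A : Set (EuclideanSpace ℝ (Fin d))), A.Finite → A.Nonempty →
      (IsRamsey A ↔ IsSubtransitive A)) ∧
    -- a set of eight points on the unit circle that is not Ramsey
    (∃ A : Set (EuclideanSpace ℝ (Fin 2)), A.ncard = 8 ∧ (∀ p ∈ A, dist p 0 = 1) ∧
      ¬ IsRamsey A) := by
  obtain ⟨h1, -, h3, h4, -, -⟩ := Vale.Agent.Results.P058.GrahamFalse.result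
  exact ⟨fun d A hA hne => ⟨fun h => listGood_of_isRamsey A hA hne h,
    fun h => isRamsey_of_listGood A hA hne h⟩, h3, h4, h1⟩

end Vale.Agent.Results.P058.FullCriterion
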