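import Vale.Agent.Results.P058.GrahamFalse
import Vale.Agent.Lib.P058L.LSuff
import Vale.Agent.Lib.P058L.NecLB
import Vale.Agent.Lib.P058L.LTrans
import Vale.Agent.Lib.P058L.EqC
import Vale.Agent.Lib.P058L.AlgB
import Vale.Agent.Lib.P058C.NecB

/-!
# P058: the characterization of the finite Euclidean Ramsey sets

A finite nonempty set `A` in `ℝ ^ d` is Ramsey iff there are affine functions `c k` with integer
weights `e k` such that `∑ e k * (c k x - c k y) ^ 2 = |x - y| ^ 2` for `x y ∈ A` and the weighted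
multiset of the values `c k x` is the same for all points `x ∈ A`.  It is subtransitive iff this
holds with all weights equal to `1`.  A second, linear form of the criterion uses additive functions
`ℝ → ℝ`.  If the distances are algebraic numbers, then Ramsey and spherical are the same; in general
they are not.
-/

namespace Vale.Agent.Results.P058.FullTheorem

open Vale.Agent.Lib.P058

/-- affine functions with integer weights -/
def SignedForm {d : ℕ} (A : Set (EuclideanSpace ℝ (Fin d))) : Prop :=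
  ∃ (n : ℕ) (e : Fin n → ℤ) (c : Fin n → EuclideanSpace ℝ (Fin d) →ᵃ[ℝ] ℝ),
    (∀ x ∈ A, ∀ y ∈ A, ∑ k, (e k : ℝ) * (c k x - c k y) ^ 2 = dist x y ^ 2) ∧
    ∀ t : ℝ, ∀ x ∈ A, ∀ y ∈ A,
      ∑ k, (if c k x = t then e k else 0) = ∑ k, if c k y = t then e k else 0

/-- the same with all weights equal to `1` -/
def UnsignedForm {d : ℕ} (A : Set (EuclideanSpace ℝ (Fin d))) : Prop :=
  ∃ (n : ℕ) (c : Fin n → EuclideanSpace ℝ (Fin d) →ᵃ[ℝ] ℝ),
    (∀ x ∈ A, ∀ y ∈ A, ∑ k, (c k x - c k y) ^ 2 = dist x y ^ 2) ∧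
    ∀ t : ℝ, ∀ x ∈ A, ∀ y ∈ A,
      ∑ k, (if c k x = t then (1 : ℤ) else 0) = ∑ k, if c k y = t then (1 : ℤ) else 0

/-- the form with additive functions `φ : ℝ → ℝ` -/
def AdditiveForm {d : ℕ} (A : Set (EuclideanSpace ℝ (Fin d))) : Prop :=
  ∃ (n : ℕ) (f g : Fin n → EuclideanSpace ℝ (Fin d) →ᵃ[ℝ] ℝ),
    (∀ x ∈ A, ∀ y ∈ A, ∑ k, (f k x - f k y) * (g k x - g k y) = dist x y ^ 2) ∧
    ∀ φ : ℝ →+ ℝ, ∀ x ∈ A, ∀ y ∈ A, ∑ k, f k x * φ (g k x) = ∑ k, f k y * φ (g k y)

theorem result :
    -- the characterization of the finite Ramsey sets, in two forms, and of the subtransitive sets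
    (∀ (d : ℕ) (A : Set (EuclideanSpace ℝ (Fin d))), A.Finite → A.Nonempty →
      (IsRamsey A ↔ SignedForm A) ∧ (IsRamsey A ↔ AdditiveForm A) ∧
        (IsSubtransitive A ↔ UnsignedForm A)) ∧
    -- every finite subtransitive set is Ramsey
    (∀ (d : ℕ) (A : Set (EuclideanSpace ℝ (Fin d))), A.Finite → A.Nonempty →
      IsSubtransitive A → IsRamsey A) ∧
    -- a Ramsey set (a cyclic quadrilateral in the plane) that is not subtransitive
    (∃ A : Set (EuclideanSpace ℝ (Fin 2)), A.ncard = 4 ∧ IsRamsey A ∧ ¬ IsSubtransitive A) ∧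
    -- sets with algebraic distances: Ramsey iff spherical
    (∀ (d : ℕ) (A : Set (EuclideanSpace ℝ (Fin d))), A.Finite → A.Nonempty →
      (∀ x ∈ A, ∀ y ∈ A, IsAlgebraic ℚ (dist x y)) → (IsRamsey A ↔ IsSpherical A)) ∧
    -- a set of eight points on the unit circle that is not Ramsey
    (∃ A : Set (EuclideanSpace ℝ (Fin 2)), A.ncard = 8 ∧ (∀ p ∈ A, dist p 0 = 1) ∧
      ¬ IsRamsey A) := by
  obtain ⟨h1, -, h3, -, -, -⟩ := Vale.Agent.Results.P058.GrahamFalse.result
  refine ⟨fun d A hA hne => ⟨⟨fun h => listGood_of_isRamsey A hA hne h,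
    fun h => isRamsey_of_listGood A hA hne h⟩,
    ⟨fun h => isGood_of_isRamsey A hA hne h,
      fun h => isRamsey_of_listGood A hA hne (listGood_of_isGood A hA h)⟩,
    isSubtransitive_iff A hA hne⟩,
    fun d A hA hne h => isRamsey_of_listGood A hA hne (listGood_of_isSubtransitive A hA h),
    h3, fun d A hA hne halg => ⟨isSpherical_of_isRamsey A hA, fun h =>
      isRamsey_of_listGood A hA hne (listGood_of_isGood A hA
        (isGood_of_algebraic A hA hne h halg))⟩, h1⟩

end Vale.Agent.Results.P058.FullTheorem
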