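import Vale.Agent.Lib.P058.Class
import Vale.Agent.Lib.P058.Deriv
import Vale.Agent.Lib.P058.Octa

/-!
# P058: neither sphericity nor subtransitivity characterizes the Ramsey sets

* An 8-point set `{(±x, ±y), (±1, 0), (0, ±1)}` on the unit circle is not Ramsey: Graham's
  conjecture (every finite spherical set is Ramsey) is false.
* A cyclic quadrilateral (a kite) is Ramsey but not subtransitive: the conjecture of Leader, Russell
  and Walters is false.
* Every finite spherical set with at most `dim + 2` points is Ramsey.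
-/

namespace Vale.Agent.Results.P058.GrahamFalse

open Vale.Agent.Lib.P058

theorem result :
    -- a set of eight points on the unit circle that is not Ramsey
    (∃ A : Set (EuclideanSpace ℝ (Fin 2)), A.ncard = 8 ∧ (∀ p ∈ A, dist p 0 = 1) ∧
      ¬ IsRamsey A) ∧
    -- Graham's conjecture (Ramsey iff spherical) is false
    ¬ (∀ (d : ℕ) (A : Set (EuclideanSpace ℝ (Fin d))), A.Finite → A.Nonempty →
      (IsRamsey A ↔ IsSpherical A)) ∧
    -- a Ramsey set (a cyclic quadrilateral in the plane) that is not subtransitive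
    (∃ A : Set (EuclideanSpace ℝ (Fin 2)), A.ncard = 4 ∧ IsRamsey A ∧ ¬ IsSubtransitive A) ∧
    -- the Leader-Russell-Walters conjecture (Ramsey iff subtransitive) is false
    ¬ (∀ (d : ℕ) (A : Set (EuclideanSpace ℝ (Fin d))), A.Finite → A.Nonempty →
      (IsRamsey A ↔ IsSubtransitive A)) ∧
    -- sets with at most `dim + 2` points: Ramsey iff spherical
    (∀ (d : ℕ) (A : Set (EuclideanSpace ℝ (Fin d))), A.Finite → A.Nonempty →
      A.ncard ≤ Module.finrank ℝ (vectorSpan ℝ A) + 2 → (IsRamsey A ↔ IsSpherical A)) ∧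
    -- sets with at most four points: Ramsey iff spherical
    (∀ (d : ℕ) (A : Set (EuclideanSpace ℝ (Fin d))), A.Finite → A.Nonempty →
      A.ncard ≤ 4 → (IsRamsey A ↔ IsSpherical A)) := by
  have h3 : ∃ A : Set (EuclideanSpace ℝ (Fin 2)), A.ncard = 4 ∧ IsRamsey A ∧
      ¬ IsSubtransitive A := by
    refine ⟨kite, ?_, kite_ramsey, kite_not_subtransitive⟩
    have hs : (0 : ℝ) < √(2 * √2 - 2) := by
      apply Real.sqrt_pos.2
      have : (1 : ℝ) < √2 := by
        rw [show (1 : ℝ) = √1 by simp]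
        exact Real.sqrt_lt_sqrt (by norm_num) (by norm_num)
      linarith
    have h2 : √2 ≠ (0 : ℝ) := by positivity
    have hne1 : √2 - 1 ≠ (1 : ℝ) := by
      intro h
      have h' : √2 = (2 : ℝ) := by linarith
      have := Real.sq_sqrt (show (0 : ℝ) ≤ 2 by norm_num)
      rw [h'] at this
      norm_num at this
    have hne2 : (-1 : ℝ) ≠ √2 - 1 := by
      intro h
      apply h2
      linarith
    have e : kite = (({!₂[(-1 : ℝ), 0], !₂[(1 : ℝ), 0], !₂[√2 - 1, √(2 * √2 - 2)],
        !₂[√2 - 1, -√(2 * √2 - 2)]} : Finset (EuclideanSpace ℝ (Fin 2))) :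
          Set (EuclideanSpace ℝ (Fin 2))) := by
      simp [kite]
    rw [e, Set.ncard_coe_finset]
    have key : ∀ a b c d : ℝ, (!₂[a, b] : EuclideanSpace ℝ (Fin 2)) = !₂[c, d] ↔ a = c ∧ b = d := by
      intro a b c d
      constructor
      · intro h
        have h0 := congrArg (fun v : EuclideanSpace ℝ (Fin 2) => v 0) h
        have h1 := congrArg (fun v : EuclideanSpace ℝ (Fin 2) => v 1) h
        exact ⟨by simpa using h0, by simpa using h1⟩
      · rintro ⟨rfl, rfl⟩; rfl
    rw [Finset.card_insert_of_notMem, Finset.card_insert_of_notMem,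
      Finset.card_insert_of_notMem, Finset.card_singleton]
    · rw [Finset.mem_singleton, key]
      rintro ⟨-, h⟩
      linarith
    · rw [Finset.mem_insert, Finset.mem_singleton, key, key]
      rintro (⟨h, -⟩ | ⟨h, -⟩) <;> exact hne1 h.symm
    · rw [Finset.mem_insert, Finset.mem_insert, Finset.mem_singleton, key, key, key]
      rintro (⟨h, -⟩ | ⟨h, -⟩ | ⟨h, -⟩)
      · norm_num at h
      · exact hne2 h
      · exact hne2 h
  have h1 : ∃ A : Set (EuclideanSpace ℝ (Fin 2)), A.ncard = 8 ∧ (∀ p ∈ A, dist p 0 = 1) ∧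
      ¬ IsRamsey A := by
    obtain ⟨δ, x, hadd, hmul, hx0, hx1, hδ⟩ := exists_derivation
    have hlt : 0 < 1 - x ^ 2 := by nlinarith
    have hsq : x ^ 2 + (√(1 - x ^ 2)) ^ 2 = 1 := by
      rw [Real.sq_sqrt hlt.le]
      ring
    refine ⟨oct x (√(1 - x ^ 2)), oct_ncard x _ hsq hx0 hx1 (Real.sqrt_pos.2 hlt), ?_,
      oct_not_ramsey δ hadd hmul x _ hsq hδ⟩
    have key : ∀ a b : ℝ, a ^ 2 + b ^ 2 = 1 →
        dist (!₂[a, b] : EuclideanSpace ℝ (Fin 2)) 0 = 1 := by
      intro a b hab
      rw [dist_zero_right, EuclideanSpace.norm_eq]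
      simp [Fin.sum_univ_two, hab]
    intro p hp
    simp only [oct, Set.mem_insert_iff, Set.mem_singleton_iff] at hp
    rcases hp with rfl | rfl | rfl | rfl | rfl | rfl | rfl | rfl <;> apply key <;> nlinarith
  refine ⟨h1, ?_, h3, ?_, ?_, ?_⟩
  · intro h
    obtain ⟨A, hA, hS, hN⟩ := h1
    have hfin : A.Finite := Set.finite_of_ncard_ne_zero (by omega)
    have hne : A.Nonempty := by
      rw [Set.nonempty_iff_ne_empty]
      rintro rfl
      simp at hA
    exact hN ((h 2 A hfin hne).2 ⟨0, 1, hS⟩)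
  · intro h
    obtain ⟨A, hA, hR, hN⟩ := h3
    have hfin : A.Finite := Set.finite_of_ncard_ne_zero (by omega)
    have hne : A.Nonempty := by
      rw [Set.nonempty_iff_ne_empty]
      rintro rfl
      simp at hA
    exact hN ((h 2 A hfin hne).1 hR)
  · intro d A hfin _ hcard
    exact ⟨isSpherical_of_isRamsey A hfin, isRamsey_of_card_le A hfin hcard⟩
  · intro d A hfin _ hcard
    exact ⟨isSpherical_of_isRamsey A hfin, fun h =>
      isRamsey_of_card_le A hfin (card_le_of_spherical A hfin hcard h) h⟩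

end Vale.Agent.Results.P058.GrahamFalse
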